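import Crest.Prelude.Def_PolyominoGame

-- ▼ part R035/Game
section

/-!
# Semantics of the Snaky Maker–Breaker game: positions, templates, the AND rule

* `BWin d M B`: Breaker is to move, Maker owns `M`, Breaker owns `B`, Maker still has `d` claims and
  can complete a copy of Snaky.
* `Tmpl C U d`: every position with `C ⊆ M` and `U ∩ B = ∅` is `BWin d`.
* `Tmpl.and`: the rule combining several threats.
-/

set_option autoImplicit false

namespace Crest.Agent.R035

open Crest.CombinatoricsR.PolyominoGame

/-- Cells of the board. -/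
abbrev Cell := ℤ × ℤ

/-- Breaker to move; Maker has `d` more claims and can complete a copy. -/
def BWin : ℕ → Finset Cell → Finset Cell → Prop
  | 0, M, _ => ContainsCopy (↑M : Set Cell)
  | d + 1, M, B => ∀ b, b ∉ M → b ∉ B →
      ∃ m, m ∉ M ∧ m ∉ B ∧ m ≠ b ∧ BWin d (insert m M) (insert b B)

theorem ContainsCopy.mono {X Y : Set Cell} (h : X ⊆ Y) (hX : ContainsCopy X) : ContainsCopy Y := by
  obtain ⟨t, e1, e2, h1, h2, h3⟩ := hX
  refine ⟨t, e1, e2, h1, h2, ?_⟩
  rcases h3 with h3 | h3
  · exact Or.inl fun p hp => h (h3 p hp)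
  · exact Or.inr fun p hp => h (h3 p hp)

theorem exists_fresh (F : Finset Cell) : ∃ m : Cell, m ∉ F :=
  Infinite.exists_notMem_finset F

theorem exists_fresh3 (M B : Finset Cell) (b : Cell) : ∃ m : Cell, m ∉ M ∧ m ∉ B ∧ m ≠ b := by
  obtain ⟨m, hm⟩ := exists_fresh (insert b (M ∪ B))
  simp only [Finset.mem_insert, Finset.mem_union, not_or] at hm
  exact ⟨m, hm.2.1, hm.2.2, hm.1⟩

theorem BWin.succ : ∀ {d : ℕ} {M B : Finset Cell}, BWin d M B → BWin (d + 1) M B
  | 0, M, B, h => by
      intro b _ _
      obtain ⟨m, h1, h2, h3⟩ := exists_fresh3 M B b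
      refine ⟨m, h1, h2, h3, ?_⟩
      refine ContainsCopy.mono ?_ h
      intro x hx
      simp only [Finset.coe_insert, Set.mem_insert_iff]
      exact Or.inr hx
  | d + 1, M, B, h => by
      intro b hb1 hb2
      obtain ⟨m, h1, h2, h3, h4⟩ := h b hb1 hb2
      exact ⟨m, h1, h2, h3, BWin.succ h4⟩

theorem BWin.mono_d {d e : ℕ} (hde : d ≤ e) {M B : Finset Cell} (h : BWin d M B) : BWin e M B := by
  induction hde with
  | refl => exact h
  | step _ ih => exact ih.succ

/-- A template: whenever Maker owns `C` and Breaker owns nothing in `U`, Breaker to move, Maker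
wins within `d` more claims. -/
def Tmpl (C U : Set Cell) (d : ℕ) : Prop :=
  ∀ M B : Finset Cell, Disjoint M B → C ⊆ (↑M : Set Cell) → Disjoint U (↑B : Set Cell) → BWin d M B

theorem Tmpl.mono {C U C' U' : Set Cell} {d d' : ℕ} (h : Tmpl C U d) (hC : C ⊆ C') (hU : U ⊆ U')
    (hd : d ≤ d') : Tmpl C' U' d' := by
  intro M B hMB hCM hUB
  exact (h M B hMB (hC.trans hCM) (hUB.mono_left hU)).mono_d hd

theorem Tmpl.base {C U : Set Cell} {d : ℕ} (h : ContainsCopy C) : Tmpl C U d := by
  refine Tmpl.mono (C := C) (U := ∅) (d := 0) ?_ subset_rfl (Set.empty_subset _) (Nat.zero_le _)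
  intro M B _ hCM _
  exact ContainsCopy.mono hCM h

/-- The AND rule. `ι` indexes the threats; in threat `t` Maker plays `m t` and then uses the
template `(Ct t, Ut t)`. -/
theorem Tmpl.and {ι : Type} {C U : Set Cell} {d : ℕ} (Ct Ut : ι → Set Cell) (m : ι → Cell)
    (h : ∀ t, Tmpl (Ct t) (Ut t) d)
    (hC : ∀ t, ∀ c ∈ Ct t, c ≠ m t → c ∈ C)
    (hU : ∀ t, Ut t ⊆ U)
    (hm : ∀ t, m t ∈ C ∨ m t ∈ Ut t)
    (hb : ∀ b, b ∉ C → ∃ t, b ∉ Ut t) :
    Tmpl C U (d + 1) := by
  intro M B hMB hCM hUB b hbM hbB
  obtain ⟨t, ht⟩ := hb b (fun hbC => hbM (hCM hbC))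
  by_cases hmM : m t ∈ M
  · obtain ⟨m', h1, h2, h3⟩ := exists_fresh3 M B b
    refine ⟨m', h1, h2, h3, h t _ _ ?_ ?_ ?_⟩
    · rw [Finset.disjoint_insert_left, Finset.disjoint_insert_right]
      refine ⟨?_, hbM, hMB⟩
      simp only [Finset.mem_insert, not_or]
      exact ⟨h3, h2⟩
    · intro c hc
      simp only [Finset.coe_insert, Set.mem_insert_iff]
      by_cases hcm : c = m t
      · right; rw [hcm]; exact hmM
      · right; exact hCM (hC t c hc hcm)
    · rw [Finset.coe_insert, Set.disjoint_insert_right]
      exact ⟨ht, hUB.mono_left (hU t)⟩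
  · have hmU : m t ∈ Ut t := (hm t).resolve_left (fun hc => hmM (hCM hc))
    have hmB : m t ∉ B := by
      intro hmB
      exact (Set.disjoint_left.mp hUB) (hU t hmU) hmB
    have hmb : m t ≠ b := by
      rintro rfl
      exact ht hmU
    refine ⟨m t, hmM, hmB, hmb, h t _ _ ?_ ?_ ?_⟩
    · rw [Finset.disjoint_insert_left, Finset.disjoint_insert_right]
      refine ⟨?_, hbM, hMB⟩
      simp only [Finset.mem_insert, not_or]
      exact ⟨hmb, hmB⟩
    · intro c hc
      simp only [Finset.coe_insert, Set.mem_insert_iff]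
      by_cases hcm : c = m t
      · left; exact hcm
      · right; exact hCM (hC t c hc hcm)
    · rw [Finset.coe_insert, Set.disjoint_insert_right]
      exact ⟨ht, hUB.mono_left (hU t)⟩

/-! ### Symmetries -/

/-- A symmetry of the game: an equivalence of cells preserving `ContainsCopy`. -/
structure Sym where
  e : Cell ≃ Cell
  copy : ∀ X : Set Cell, ContainsCopy X → ContainsCopy (e '' X)

theorem BWin.image (g : Sym) : ∀ {d : ℕ} {M B : Finset Cell}, BWin d M B →
    BWin d (M.map g.e.toEmbedding) (B.map g.e.toEmbedding)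
  | 0, M, B, h => by
      have := g.copy _ h
      unfold BWin
      rw [Finset.coe_map]
      exact this
  | d + 1, M, B, h => by
      intro b hb1 hb2
      obtain ⟨m, h1, h2, h3, h4⟩ := h (g.e.symm b)
        (fun hh => hb1 (by
          rw [Finset.mem_map]
          exact ⟨_, hh, by simp⟩))
        (fun hh => hb2 (by
          rw [Finset.mem_map]
          exact ⟨_, hh, by simp⟩))
      refine ⟨g.e m, ?_, ?_, ?_, ?_⟩
      · intro hh
        rw [Finset.mem_map] at hh
        obtain ⟨a, ha, hae⟩ := hh
        have : a = m := g.e.injective (by simpa using hae)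
        exact h1 (this ▸ ha)
      · intro hh
        rw [Finset.mem_map] at hh
        obtain ⟨a, ha, hae⟩ := hh
        have : a = m := g.e.injective (by simpa using hae)
        exact h2 (this ▸ ha)
      · intro hh
        apply h3
        rw [← hh]; simp
      · have := BWin.image g h4
        simpa [Finset.map_insert] using this

theorem Tmpl.image (g g' : Sym) (hgg : g'.e = g.e.symm) {C U : Set Cell} {d : ℕ} (h : Tmpl C U d) :
    Tmpl (g.e '' C) (g.e '' U) d := by
  intro M B hMB hCM hUB
  have key : BWin d (M.map g'.e.toEmbedding) (B.map g'.e.toEmbedding) := by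
    apply h
    · rw [Finset.disjoint_map]; exact hMB
    · intro c hc
      rw [Finset.coe_map]
      refine ⟨g.e c, hCM ⟨c, hc, rfl⟩, ?_⟩
      simp [hgg]
    · rw [Set.disjoint_left] at hUB ⊢
      intro c hc hcB
      rw [Finset.coe_map] at hcB
      obtain ⟨a, ha, hae⟩ := hcB
      apply hUB ⟨c, hc, rfl⟩
      have : a = g.e c := by
        rw [← hae]; simp [hgg]
      rw [← this]; exact ha
  have := BWin.image g key
  rw [Finset.map_map, Finset.map_map] at this
  have hid : (g'.e.toEmbedding.trans g.e.toEmbedding) = Function.Embedding.refl _ := by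
    ext x <;> simp [hgg]
  rwa [hid, Finset.map_refl, Finset.map_refl] at this

/-- Translation as a symmetry. -/
def Sym.trans (v : Cell) : Sym where
  e := Equiv.addRight v
  copy := by
    rintro X ⟨t, e1, e2, h1, h2, h3⟩
    refine ⟨t + v, e1, e2, h1, h2, ?_⟩
    rcases h3 with h3 | h3
    · left
      intro p hp
      refine ⟨_, h3 p hp, ?_⟩
      simp only [Equiv.coe_addRight, Prod.fst_add, Prod.snd_add]
      ext <;> simp <;> ring
    · right
      intro p hp
      refine ⟨_, h3 p hp, ?_⟩
      simp only [Equiv.coe_addRight, Prod.fst_add, Prod.snd_add]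
      ext <;> simp <;> ring

theorem Tmpl.translate (v : Cell) {C U : Set Cell} {d : ℕ} (h : Tmpl C U d) :
    Tmpl ((fun c => c + v) '' C) ((fun c => c + v) '' U) d := by
  have := Tmpl.image (Sym.trans v) (Sym.trans (-v)) (by ext x <;> simp [Sym.trans]) h
  exact this

/-! ### From a template to the final statement -/

open Classical in
/-- State of the game for the Maker policy. -/
structure St where
  d : ℕ
  M : Finset Cell
  B : Finset Cell
  last : Cell

open Classical in
/-- Maker's answer. -/
noncomputable def answer (d : ℕ) (M B : Finset Cell) (b : Cell) : Cell :=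
  if h : ∃ m, m ∉ M ∧ m ∉ B ∧ m ≠ b ∧ BWin d (insert m M) (insert b B) then h.choose
  else 0

theorem answer_spec {d : ℕ} {M B : Finset Cell} {b : Cell}
    (h : ∃ m, m ∉ M ∧ m ∉ B ∧ m ≠ b ∧ BWin d (insert m M) (insert b B)) :
    answer d M B b ∉ M ∧ answer d M B b ∉ B ∧ answer d M B b ≠ b ∧
      BWin d (insert (answer d M B b) M) (insert b B) := by
  unfold answer
  rw [dif_pos h]
  exact h.choose_spec

/-- One round: Breaker replies `b`, Maker answers. -/
noncomputable def step (s : St) (b : Cell) : St :=
  ⟨s.d - 1, insert (answer (s.d - 1) s.M s.B b) s.M, insert b s.B, answer (s.d - 1) s.M s.B b⟩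

/-- Initial state, Maker has claimed `c` and has `d` more claims. -/
def init (d : ℕ) (c : Cell) : St := ⟨d, {c}, ∅, c⟩

/-- The policy. -/
noncomputable def policy (d : ℕ) (c : Cell) (l : List Cell) : Cell := (l.foldl step (init d c)).last

/-- State before Breaker's reply number `k`. -/
noncomputable def stAt (d : ℕ) (c : Cell) (b : ℕ → Cell) (k : ℕ) : St :=
  ((List.range k).map b).foldl step (init d c)

theorem stAt_zero (d : ℕ) (c : Cell) (b : ℕ → Cell) : stAt d c b 0 = init d c := rfl

theorem stAt_succ (d : ℕ) (c : Cell) (b : ℕ → Cell) (k : ℕ) :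
    stAt d c b (k + 1) = step (stAt d c b k) (b k) := by
  unfold stAt
  rw [List.range_succ, List.map_append, List.foldl_append]
  rfl

theorem makerClaim_policy (d : ℕ) (c : Cell) (b : ℕ → Cell) (k : ℕ) :
    makerClaim (policy d c) b k = (stAt d c b k).last := rfl

theorem final_of_bwin (n : ℕ) (c : Cell) (h : BWin n {c} ∅) :
    ∃ σ : List (ℤ × ℤ) → ℤ × ℤ, ∀ b : ℕ → ℤ × ℤ,
      (∀ k : ℕ, k < n →
        (∀ j : ℕ, j ≤ k → b k ≠ makerClaim σ b j) ∧
        (∀ j : ℕ, j < k → b k ≠ b j)) →
      (∀ k : ℕ, k ≤ n →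
        (∀ j : ℕ, j < k → makerClaim σ b k ≠ makerClaim σ b j) ∧
        (∀ j : ℕ, j < k → makerClaim σ b k ≠ b j)) ∧
      ContainsCopy {c | ∃ j : ℕ, j ≤ n ∧ c = makerClaim σ b j} := by
  refine ⟨policy n c, ?_⟩
  intro b hb
  have inv : ∀ k : ℕ, k ≤ n →
      (stAt n c b k).d = n - k ∧ BWin (n - k) (stAt n c b k).M (stAt n c b k).B ∧
      (∀ x, x ∈ (stAt n c b k).M ↔ ∃ j, j ≤ k ∧ x = makerClaim (policy n c) b j) ∧
      (∀ x, x ∈ (stAt n c b k).B ↔ ∃ j, j < k ∧ x = b j) ∧
      (∀ j : ℕ, j < k → makerClaim (policy n c) b k ≠ makerClaim (policy n c) b j) ∧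
      (∀ j : ℕ, j < k → makerClaim (policy n c) b k ≠ b j) := by
    intro k
    induction k with
    | zero =>
      intro _
      refine ⟨rfl, ?_, ?_, ?_, ?_, ?_⟩
      · rw [stAt_zero]; exact h
      · intro x
        rw [stAt_zero]
        constructor
        · intro hx
          refine ⟨0, le_rfl, ?_⟩
          have : x = c := by simpa [init] using hx
          rw [this]; rfl
        · rintro ⟨j, hj, rfl⟩
          have : j = 0 := by omega
          subst this
          simp [makerClaim_policy, stAt_zero, init]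
      · intro x
        rw [stAt_zero]
        simp [init]
      · intro j hj; omega
      · intro j hj; omega
    | succ k ih =>
      intro hk
      obtain ⟨h1, h2, h3, h4, _, _⟩ := ih (by omega)
      have hd : n - k = (n - (k + 1)) + 1 := by omega
      rw [hd] at h2
      have hbM : b k ∉ (stAt n c b k).M := by
        rw [h3]
        rintro ⟨j, hj, hje⟩
        exact (hb k (by omega)).1 j hj hje
      have hbB : b k ∉ (stAt n c b k).B := by
        rw [h4]
        rintro ⟨j, hj, hje⟩
        exact (hb k (by omega)).2 j hj hje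
      have hd' : (stAt n c b k).d - 1 = n - (k + 1) := by rw [h1]; omega
      obtain ⟨a1, a2, a3, a4⟩ := answer_spec (h2 (b k) hbM hbB)
      have hM : (stAt n c b (k + 1)).M =
          insert (answer (n - (k + 1)) (stAt n c b k).M (stAt n c b k).B (b k)) (stAt n c b k).M := by
        rw [stAt_succ, step, hd']
      have hB : (stAt n c b (k + 1)).B = insert (b k) (stAt n c b k).B := by
        rw [stAt_succ, step]
      have hlast : makerClaim (policy n c) b (k + 1) =
          answer (n - (k + 1)) (stAt n c b k).M (stAt n c b k).B (b k) := by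
        rw [makerClaim_policy, stAt_succ, step, hd']
      refine ⟨?_, ?_, ?_, ?_, ?_, ?_⟩
      · rw [stAt_succ, step]; exact hd'
      · rw [hM, hB]; exact a4
      · intro x
        rw [hM, Finset.mem_insert, h3, ← hlast]
        constructor
        · rintro (rfl | ⟨j, hj, rfl⟩)
          · exact ⟨k + 1, le_rfl, rfl⟩
          · exact ⟨j, by omega, rfl⟩
        · rintro ⟨j, hj, rfl⟩
          rcases Nat.lt_or_ge j (k + 1) with hlt | hge
          · exact Or.inr ⟨j, by omega, rfl⟩
          · have : j = k + 1 := by omega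
            subst this
            exact Or.inl rfl
      · intro x
        rw [hB, Finset.mem_insert, h4]
        constructor
        · rintro (rfl | ⟨j, hj, rfl⟩)
          · exact ⟨k, by omega, rfl⟩
          · exact ⟨j, by omega, rfl⟩
        · rintro ⟨j, hj, rfl⟩
          rcases Nat.lt_or_ge j k with hlt | hge
          · exact Or.inr ⟨j, hlt, rfl⟩
          · have : j = k := by omega
            subst this
            exact Or.inl rfl
      · intro j hj hje
        apply a1
        rw [h3, ← hlast]
        exact ⟨j, by omega, hje⟩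
      · intro j hj hje
        rcases Nat.lt_or_ge j k with hlt | hge
        · apply a2
          rw [h4, ← hlast]
          exact ⟨j, hlt, hje⟩
        · have : j = k := by omega
          subst this
          apply a3
          rw [← hlast]
          exact hje
  constructor
  · intro k hk
    obtain ⟨_, _, _, _, h5, h6⟩ := inv k hk
    exact ⟨h5, h6⟩
  · obtain ⟨_, h2, h3, _, _, _⟩ := inv n le_rfl
    rw [Nat.sub_self] at h2
    refine ContainsCopy.mono ?_ h2
    intro x hx
    exact (h3 x).mp hx

theorem final_of_tmpl (c : Cell) (U : Set Cell) (h : Tmpl {c} U 20) :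
    ∃ σ : List (ℤ × ℤ) → ℤ × ℤ, ∀ b : ℕ → ℤ × ℤ,
      (∀ k : ℕ, k < 20 →
        (∀ j : ℕ, j ≤ k → b k ≠ makerClaim σ b j) ∧
        (∀ j : ℕ, j < k → b k ≠ b j)) →
      (∀ k : ℕ, k ≤ 20 →
        (∀ j : ℕ, j < k → makerClaim σ b k ≠ makerClaim σ b j) ∧
        (∀ j : ℕ, j < k → makerClaim σ b k ≠ b j)) ∧
      ContainsCopy {c | ∃ j : ℕ, j ≤ 20 ∧ c = makerClaim σ b j} := by
  apply final_of_bwin 20 c
  apply h
  · simp
  · simp
  · simp

end Crest.Agent.R035
private theorem rz_6b286c8b0d : type_of% @_root_.Crest.Agent.R035.BWin.eq_def := @_root_.Crest.Agent.R035.BWin.eq_def -- L22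
end

-- ▼ part R035/Check

/-!
# Bitboard templates and the kernel-friendly checker

Cell `(x, y)` with `0 ≤ x, y < 16` is bit `x + 32 * y`. A template is one natural number
`P < 2 ^ 1024`: bits `[0, 512)` are the Maker cells `C`, bits `[512, 1024)` are the full support `U`.
-/

set_option autoImplicit false
set_option exponentiation.threshold 100000

namespace Crest.Agent.R035

open Crest.CombinatoricsR.PolyominoGame

/-- The cell of a bit index. -/
def cellOf (i : ℕ) : Cell := (((i % 32 : ℕ) : ℤ), ((i / 32 : ℕ) : ℤ))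

def Cset (P : ℕ) : Set Cell := {c | ∃ i, i < 512 ∧ P.testBit i = true ∧ cellOf i = c}

def Uset (P : ℕ) : Set Cell := {c | ∃ i, i < 512 ∧ P.testBit (512 + i) = true ∧ cellOf i = c}

structure Ok (d P : ℕ) : Prop where
  guard : ∀ i, P.testBit i = true → i % 32 < 16 ∧ i < 1024
  sub : ∀ i, i < 512 → P.testBit i = true → P.testBit (512 + i) = true
  tmpl : Tmpl (Cset P) (Uset P) d

theorem Ok.mono {d d' P : ℕ} (h : Ok d P) (hd : d ≤ d') : Ok d' P :=
  ⟨h.guard, h.sub, h.tmpl.mono subset_rfl subset_rfl hd⟩

theorem cellOf_inj {i j : ℕ} (h : cellOf i = cellOf j) : i = j := by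
  unfold cellOf at h
  rw [Prod.mk.injEq] at h
  omega

theorem Ok.shift {d P : ℕ} (h : Ok d P) (s : ℕ)
    (hg : ∀ i, (P <<< s).testBit i = true → i % 32 < 16 ∧ i < 1024) : Ok d (P <<< s) := by
  have tb : ∀ i, P.testBit i = true → (P <<< s).testBit (i + s) = true := by
    intro i hi
    rw [Nat.testBit_shiftLeft]
    simp [hi]
  have tb' : ∀ i, (P <<< s).testBit i = true → s ≤ i ∧ P.testBit (i - s) = true := by
    intro i hi
    rw [Nat.testBit_shiftLeft] at hi
    simpa using hi
  -- U-bits stay within bounds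
  have hU : ∀ i, P.testBit (512 + i) = true → i + s < 512 ∧ i % 32 < 16 ∧ (i + s) % 32 < 16 := by
    intro i hi
    have h1 := hg _ (tb _ hi)
    have h2 := h.guard _ hi
    omega
  have hsub : ∀ i, i < 512 → (P <<< s).testBit i = true → (P <<< s).testBit (512 + i) = true := by
    intro i hi hb
    obtain ⟨h1, h2⟩ := tb' i hb
    have h3 := h.sub (i - s) (by omega) h2
    have h4 := tb _ h3
    have : 512 + (i - s) + s = 512 + i := by omega
    rwa [this] at h4
  refine ⟨hg, hsub, ?_⟩
  by_cases hne : ∃ i, P.testBit (512 + i) = true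
  · obtain ⟨i0, hi0⟩ := hne
    have key : ∀ i, P.testBit (512 + i) = true →
        cellOf (i + s) = cellOf i + (cellOf (i0 + s) - cellOf i0) := by
      intro i hi
      have h1 := hU i hi
      have h2 := hU i0 hi0
      unfold cellOf
      ext
      · simp only [Prod.fst_add, Prod.fst_sub]
        omega
      · simp only [Prod.snd_add, Prod.snd_sub]
        omega
    have ht := h.tmpl.translate (cellOf (i0 + s) - cellOf i0)
    refine ht.mono ?_ ?_ le_rfl
    · rintro c ⟨c', ⟨i, hi, hb, rfl⟩, rfl⟩
      have hsb := h.sub i hi hb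
      refine ⟨i + s, (hU i hsb).1, tb i hb, ?_⟩
      exact key i hsb
    · rintro c ⟨c', ⟨i, hi, hb, rfl⟩, rfl⟩
      refine ⟨i + s, (hU i hb).1, ?_, ?_⟩
      · have := tb _ hb
        rwa [show 512 + i + s = 512 + (i + s) by omega] at this
      · exact key i hb
  · refine h.tmpl.mono ?_ ?_ le_rfl
    · rintro c ⟨i, hi, hb, rfl⟩
      exact absurd ⟨i, h.sub i hi hb⟩ hne
    · rintro c ⟨i, hi, hb, rfl⟩
      exact absurd ⟨i, hb⟩ hne

/-- `M` is a single bit below 512. -/
def Single (M : ℕ) : Prop := ∃ m, m < 512 ∧ M = 2 ^ m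

/-- Offsets of the 64 slots of a block. -/
def Aligned (off : ℕ) : Prop := ∃ k, k < 64 ∧ off = 1024 * k

/-- The mask `2 ^ 1024 - 1`. -/
local notation "MASK" => (nat_lit 179769313486231590772930519078902473361797697894230657273430081157732675805500963132708477322407536021120113879871393357658789768814416622492847430639474124377767893424865485276302219601246094119453082952085005768838150682342462881473913110540827237163350510684586298239947245938479716304835356329624224137215 : ℕ)

/-- The mask of the Maker part, `2 ^ 512 - 1`. -/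
local notation "CMASK" => (nat_lit 13407807929942597099574024998205846127479365820592393377723561443721764030073546976801874298166903427690031858186486050853753882811946569946433649006084095 : ℕ)

/-- The mask of the allowed bits. -/
local notation "OKMASK" => (nat_lit 2743020179230535281946541939345750848555742525508196244463891865018732560317087494586393599377565894397365059124943060525486210366883083181910179450378780297812958991483673120165741788626975511839923752263378027203536180819116878732226270817108308850929253867045887029310881577406346282326553799069597695 : ℕ)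

def mask : ℕ := MASK

def cmask : ℕ := CMASK

def okmask : ℕ := OKMASK

theorem mask_eq : mask = 2 ^ 1024 - 1 := by decide +kernel

theorem cmask_eq : cmask = 2 ^ 512 - 1 := by decide +kernel

theorem okmask_testBit (i : ℕ) (h : okmask.testBit i = true) : i % 32 < 16 ∧ i < 1024 := by
  have h1 : i < 1024 := by
    by_contra hge
    have hlt : okmask < 2 ^ i :=
      lt_of_lt_of_le (by decide +kernel : okmask < 2 ^ 1024) (Nat.pow_le_pow_right (by norm_num) (by omega))
    rw [Nat.testBit_lt_two_pow hlt] at h
    exact Bool.noConfusion h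
  have h2 : ∀ i < 1024, okmask.testBit i = true → i % 32 < 16 := by decide +kernel
  exact ⟨h2 i h1 h, h1⟩

def slot (B off : ℕ) : ℕ := Nat.land (Nat.shiftRight B off) MASK

/-- All slots of a block are valid templates. -/
def Valid (d B : ℕ) : Prop := ∀ off, Aligned off → Ok d (slot B off)

theorem Valid.mono {d d' B : ℕ} (h : Valid d B) (hd : d ≤ d') : Valid d' B :=
  fun off ho => (h off ho).mono hd

/-- Threat lists. -/
inductive T (d : ℕ) : Type
  | n : T d
  | c (B d' : ℕ) (hd : d' ≤ d) (hB : Valid d' B) (off : ℕ) (hoff : Aligned off)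
      (sh : ℕ) (M : ℕ) (hM : Single M) (rest : T d) : T d

/-- The value of a threat on the board. -/
@[reducible] def thr (B off sh : ℕ) : ℕ :=
  Nat.shiftLeft (Nat.land (Nat.shiftRight B off) MASK) sh

/-- The check of a threat list against the claimed template `P`. -/
noncomputable def T.check {d : ℕ} (t : T d) : ℕ → ℕ → ℕ → Bool :=
  @T.rec d (fun _ => ℕ → ℕ → ℕ → Bool)
    (fun P O A => Nat.beq
      (Nat.lor (Nat.lor (Nat.lor O (Nat.shiftRight A (nat_lit 512))) P)
        (Nat.shiftLeft (Nat.land P CMASK) (nat_lit 512)))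
      (Nat.land P OKMASK))
    (fun B _ _ _ off _ sh M _ _ ih => fun P O A =>
      ih P (Nat.lor O (Nat.xor (Nat.shiftLeft (Nat.land (Nat.shiftRight B off) MASK) sh) M))
        (Nat.land A (Nat.shiftLeft (Nat.land (Nat.shiftRight B off) MASK) sh)))
    t

/-- Semantic content of a threat list. -/
inductive T.Mem {d : ℕ} : ℕ → ℕ → T d → Prop
  | here (B d' : ℕ) (hd : d' ≤ d) (hB : Valid d' B) (off : ℕ) (hoff : Aligned off)
      (sh : ℕ) (M : ℕ) (hM : Single M) (rest : T d) :
      T.Mem (thr B off sh) M (T.c B d' hd hB off hoff sh M hM rest)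
  | there (B d' : ℕ) (hd : d' ≤ d) (hB : Valid d' B) (off : ℕ) (hoff : Aligned off)
      (sh : ℕ) (M : ℕ) (hM : Single M) (rest : T d) (V M' : ℕ) (h : T.Mem V M' rest) :
      T.Mem V M' (T.c B d' hd hB off hoff sh M hM rest)

theorem T.Mem.shifted {d : ℕ} {V M : ℕ} {t : T d} (h : T.Mem V M t) :
    Single M ∧ ∃ P s, Ok d P ∧ V = P <<< s := by
  induction h with
  | here B d' hd hB off hoff sh M hM rest =>
    exact ⟨hM, _, sh, (hB off hoff).mono hd, rfl⟩
  | there B d' hd hB off hoff sh M hM rest V M' _ ih => exact ih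

/-- Well-formedness of a claimed template. -/
structure Wf (P : ℕ) : Prop where
  guard : ∀ i, P.testBit i = true → i % 32 < 16 ∧ i < 1024
  sub : ∀ i, i < 512 → P.testBit i = true → P.testBit (512 + i) = true

theorem nil_check {P O A : ℕ} (h : Nat.beq
      (Nat.lor (Nat.lor (Nat.lor O (Nat.shiftRight A 512)) P)
        (Nat.shiftLeft (Nat.land P cmask) 512))
      (Nat.land P okmask) = true) :
    Wf P ∧ (∀ i, O.testBit i = true → P.testBit i = true) ∧
      (∀ i, A.testBit (512 + i) = true → P.testBit i = true) := by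
  have h' : (((O ||| (A >>> 512)) ||| P) ||| ((P &&& cmask) <<< 512)) = P &&& okmask :=
    Nat.eq_of_beq_eq_true h
  have key : ∀ i, (((O ||| (A >>> 512)) ||| P) ||| ((P &&& cmask) <<< 512)).testBit i = true →
      P.testBit i = true ∧ okmask.testBit i = true := by
    intro i hi
    rw [h', Nat.testBit_and] at hi
    simpa using hi
  refine ⟨⟨?_, ?_⟩, ?_, ?_⟩
  · intro i hi
    apply okmask_testBit
    apply (key i _).2
    simp only [Nat.testBit_or, hi, Bool.or_true, Bool.true_or]
  · intro i hi hb
    apply (key _ _).1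
    rw [Nat.testBit_or, Nat.testBit_shiftLeft, Nat.testBit_and]
    have e : 512 + i - 512 = i := by omega
    rw [e, hb, cmask_eq, Nat.testBit_two_pow_sub_one]
    simp [hi]
  · intro i hi
    apply (key i _).1
    simp only [Nat.testBit_or, hi, Bool.true_or]
  · intro i hi
    apply (key i _).1
    simp only [Nat.testBit_or, Nat.testBit_shiftRight, hi, Bool.or_true, Bool.true_or]

/-- Meaning of a successful check. -/
theorem T.check_spec {d : ℕ} (t : T d) : ∀ P O A : ℕ, T.check t P O A = true →
    Wf P ∧ (∀ i, O.testBit i = true → P.testBit i = true) ∧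
    (∀ V M, T.Mem V M t → ∀ i, (V ^^^ M).testBit i = true → P.testBit i = true) ∧
    (∀ i, A.testBit (512 + i) = true → (∀ V M, T.Mem V M t → V.testBit (512 + i) = true) →
      P.testBit i = true) := by
  induction t with
  | n =>
    intro P O A h
    obtain ⟨h1, h2, h3⟩ := nil_check h
    refine ⟨h1, h2, ?_, ?_⟩
    · intro V M hm; cases hm
    · intro i hi _
      exact h3 i hi
  | c B d' hd hB off hoff sh M hM rest ih =>
    intro P O A h
    have h' : T.check rest P
      (Nat.lor O (Nat.xor (thr B off sh) M)) (Nat.land A (thr B off sh)) = true := h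
    obtain ⟨h0, h1, h2, h3⟩ := ih _ _ _ h'
    refine ⟨h0, ?_, ?_, ?_⟩
    · intro i hi
      apply h1
      change (O ||| _).testBit i = true
      rw [Nat.testBit_or, hi]; rfl
    · intro V M' hm
      cases hm with
      | here =>
        intro i hi
        apply h1
        change (O ||| (thr B off sh ^^^ M)).testBit i = true
        rw [Nat.testBit_or, hi]; simp
      | there _ _ _ _ _ _ _ _ _ _ _ _ hm => exact h2 _ _ hm
    · intro i hi hall
      apply h3
      · change (A &&& thr B off sh).testBit (512 + i) = true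
        rw [Nat.testBit_and, hi, hall _ _ (T.Mem.here B d' hd hB off hoff sh M hM rest)]; rfl
      · intro V M' hm
        exact hall _ _ (T.Mem.there B d' hd hB off hoff sh M hM rest V M' hm)

theorem T.ok_of_check {d : ℕ} (t : T d) (P : ℕ)
    (h : T.check t P 0 mask = true) : Ok (d + 1) P := by
  obtain ⟨hP, -, h2, h3⟩ := T.check_spec t P 0 mask h
  have sing : ∀ {M : ℕ}, Single M → ∃ m, m < 512 ∧ ∀ i, M.testBit i = true ↔ i = m := by
    rintro M ⟨m, hm, rfl⟩
    refine ⟨m, hm, ?_⟩
    intro i
    rw [Nat.testBit_two_pow]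
    simp [eq_comm]
  have okV : ∀ V M, T.Mem V M t → Ok d V := by
    intro V M hm
    obtain ⟨hM, Q, s, hQ, rfl⟩ := hm.shifted
    obtain ⟨m, hm512, hMb⟩ := sing hM
    apply hQ.shift
    intro i hi
    by_cases him : i = m
    · subst him
      -- the bit is a C-bit; its U-bit shows the bounds
      have hs : s ≤ i ∧ Q.testBit (i - s) = true := by
        rw [Nat.testBit_shiftLeft] at hi
        simpa using hi
      have hu := hQ.sub (i - s) (by omega) hs.2
      have hu' : (Q <<< s).testBit (512 + i) = true := by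
        rw [Nat.testBit_shiftLeft]
        have e : 512 + i - s = 512 + (i - s) := by omega
        rw [e, hu]
        simp; omega
      have : (Q <<< s ^^^ M).testBit (512 + i) = true := by
        rw [Nat.testBit_xor, hu']
        have : M.testBit (512 + i) = false := by
          rw [Bool.eq_false_iff]
          intro hcon
          have := (hMb _).mp hcon
          omega
        rw [this]; rfl
      have := hP.guard _ (h2 _ _ hm _ this)
      omega
    · have : (Q <<< s ^^^ M).testBit i = true := by
        rw [Nat.testBit_xor, hi]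
        have : M.testBit i = false := by
          rw [Bool.eq_false_iff]
          intro hcon
          exact him ((hMb _).mp hcon)
        rw [this]; rfl
      exact hP.guard _ (h2 _ _ hm _ this)
  refine ⟨hP.guard, hP.sub, ?_⟩
  -- choose the Maker cell of each threat
  have hsel : ∀ x : {x : ℕ × ℕ // T.Mem x.1 x.2 t}, ∃ m, m < 512 ∧
      ∀ i, x.1.2.testBit i = true ↔ i = m := fun x => sing x.2.shifted.1
  choose mv hmv1 hmv2 using hsel
  refine Tmpl.and (ι := {x : ℕ × ℕ // T.Mem x.1 x.2 t}) (fun x => Cset x.1.1) (fun x => Uset x.1.1)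
    (fun x => cellOf (mv x)) ?_ ?_ ?_ ?_ ?_
  · rintro ⟨⟨V, M⟩, hm⟩
    exact (okV V M hm).tmpl
  · rintro ⟨⟨V, M⟩, hm⟩ c ⟨i, hi, hb, rfl⟩ hne
    refine ⟨i, hi, ?_, rfl⟩
    apply h2 V M hm
    rw [Nat.testBit_xor, hb]
    have : M.testBit i = false := by
      rw [Bool.eq_false_iff]
      intro hcon
      have := (hmv2 ⟨⟨V, M⟩, hm⟩ i).mp hcon
      exact hne (by rw [this])
    rw [this]; rfl
  · rintro ⟨⟨V, M⟩, hm⟩ c ⟨i, hi, hb, rfl⟩
    refine ⟨i, hi, ?_, rfl⟩
    apply h2 V M hm
    rw [Nat.testBit_xor, hb]
    have : M.testBit (512 + i) = false := by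
      rw [Bool.eq_false_iff]
      intro hcon
      have h5 := (hmv2 ⟨⟨V, M⟩, hm⟩ _).mp hcon
      have h6 := hmv1 ⟨⟨V, M⟩, hm⟩
      omega
    rw [this]; rfl
  · rintro ⟨⟨V, M⟩, hm⟩
    have h6 := hmv1 ⟨⟨V, M⟩, hm⟩
    have h7 := hmv2 ⟨⟨V, M⟩, hm⟩ (mv ⟨⟨V, M⟩, hm⟩)
    by_cases hb : V.testBit (mv ⟨⟨V, M⟩, hm⟩) = true
    · right
      exact ⟨_, h6, (okV V M hm).sub _ h6 hb, rfl⟩
    · left
      refine ⟨_, h6, ?_, rfl⟩
      apply h2 V M hm
      rw [Nat.testBit_xor, h7.mpr rfl]
      rw [Bool.not_eq_true] at hb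
      rw [hb]; rfl
  · intro b hb
    by_contra hcon
    push Not at hcon
    have hall : ∀ V M, T.Mem V M t → b ∈ Uset V := by
      intro V M hm
      exact hcon ⟨⟨V, M⟩, hm⟩
    by_cases hex : ∃ i, i < 512 ∧ cellOf i = b
    · obtain ⟨i, hi, rfl⟩ := hex
      apply hb
      refine ⟨i, hi, ?_, rfl⟩
      apply h3 i
      · rw [mask_eq, Nat.testBit_two_pow_sub_one]
        simp; omega
      · intro V M hm
        obtain ⟨j, hj, hjb, hje⟩ := hall V M hm
        rwa [← cellOf_inj hje]
    · -- no threats at all would violate the check at `i = 16`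
      rcases Classical.em (∃ V M, T.Mem V M t) with ⟨V, M, hm⟩ | hno
      · obtain ⟨j, hj, hjb, hje⟩ := hall V M hm
        exact hex ⟨j, hj, hje⟩
      · have := h3 16 (by
          rw [mask_eq, Nat.testBit_two_pow_sub_one]
          simp) (by
          intro V M hm
          exact absurd ⟨V, M, hm⟩ hno)
        have := (hP.guard 16 this).1
        omega

/-- A block of templates, each given by its threat list. -/
inductive Bl (d : ℕ) : Type
  | n : Bl d
  | c (t : T d) (rest : Bl d) : Bl d

/-- The check of a block: `R` is the rest of the block value (with a sentinel bit on top). -/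
noncomputable def Bl.check {d : ℕ} (l : Bl d) : ℕ → Bool :=
  @Bl.rec d (fun _ => ℕ → Bool)
    (fun R => Nat.beq R (nat_lit 1))
    (fun t _ ih => fun R =>
      @Bool.rec (fun _ => Bool) false (ih (Nat.shiftRight R (nat_lit 1024)))
        (T.check t (Nat.land R MASK) (nat_lit 0) MASK))
    l

/-- Number of templates in a block. -/
def Bl.length {d : ℕ} : Bl d → ℕ
  | .n => 0
  | .c _ rest => rest.length + 1

theorem Bl.check_spec {d : ℕ} (l : Bl d) : ∀ R : ℕ, Bl.check l R = true →
    R >>> (1024 * l.length) = 1 ∧ ∀ k, k < l.length → Ok (d + 1) (slot R (1024 * k)) := by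
  induction l with
  | n =>
    intro R h
    refine ⟨?_, fun k hk => absurd hk (Nat.not_lt_zero _)⟩
    exact Nat.eq_of_beq_eq_true h
  | c t rest ih =>
    intro R h
    have h' : (@Bool.rec (fun _ => Bool) false (Bl.check rest (Nat.shiftRight R 1024))
        (T.check t (Nat.land R mask) 0 mask)) = true := h
    cases hc : T.check t (Nat.land R mask) 0 mask with
    | false => rw [hc] at h'; exact Bool.noConfusion h'
    | true =>
      rw [hc] at h'
      obtain ⟨h1, h2⟩ := ih _ h'
      constructor
      · change (R >>> 1024) >>> (1024 * rest.length) = 1 at h1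
        rw [← Nat.shiftRight_add] at h1
        rw [← h1]
        change R >>> (1024 * (rest.length + 1)) = _
        congr 1
        ring
      intro k hk
      cases k with
      | zero =>
        have := T.ok_of_check t _ hc
        exact this
      | succ k =>
        have hk' : k < rest.length := by
          have : k + 1 < rest.length + 1 := hk
          omega
        have := h2 k hk'
        have e : slot (Nat.shiftRight R 1024) (1024 * k) = slot R (1024 * (k + 1)) := by
          change ((R >>> 1024) >>> (1024 * k)) &&& mask = (R >>> (1024 * (k + 1))) &&& mask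
          rw [← Nat.shiftRight_add]
          congr 2
          ring
        rw [← e]
        exact this

theorem slot_sentinel (B k : ℕ) (hk : k < 64) :
    slot (Nat.add B (Nat.shiftLeft 1 65536)) (1024 * k) = slot B (1024 * k) := by
  change ((B + 1 <<< 65536) >>> (1024 * k)) &&& mask = (B >>> (1024 * k)) &&& mask
  rw [mask_eq, Nat.and_two_pow_sub_one_eq_mod, Nat.and_two_pow_sub_one_eq_mod,
    Nat.shiftRight_eq_div_pow, Nat.shiftRight_eq_div_pow, Nat.one_shiftLeft]
  have e : (2 : ℕ) ^ 65536 = 2 ^ (1024 * k) * (2 ^ 1024 * 2 ^ (64512 - 1024 * k)) := by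
    rw [← pow_add, ← pow_add]
    congr 1
    omega
  rw [e, Nat.add_mul_div_left _ _ (Nat.two_pow_pos _), Nat.add_mul_mod_self_left]

/-- A successful block check proves all 64 templates of the block. -/
theorem Bl.valid {d : ℕ} (l : Bl d) (B : ℕ)
    (h : Bl.check l (Nat.add B (Nat.shiftLeft (nat_lit 1) (nat_lit 65536))) = true) :
    Valid (d + 1) B := by
  obtain ⟨h1, h2⟩ := Bl.check_spec l _ h
  have hl : 64 ≤ l.length := by
    by_contra hlt
    have h3 : (B + 1 <<< 65536) >>> (1024 * l.length) = 1 := h1
    rw [Nat.shiftRight_eq_div_pow, Nat.one_shiftLeft] at h3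
    have h4 : (2 : ℕ) ^ 65536 / 2 ^ (1024 * l.length) ≤ 1 := by
      rw [← h3]
      exact Nat.div_le_div_right (Nat.le_add_left _ _)
    rw [Nat.pow_div (by omega) (by norm_num)] at h4
    have h5 : 65536 - 1024 * l.length = (65536 - 1024 * l.length - 1) + 1 := by omega
    rw [h5, pow_succ] at h4
    have h6 : 1 ≤ (2 : ℕ) ^ (65536 - 1024 * l.length - 1) := Nat.one_le_two_pow
    omega
  rintro off ⟨k, hk, rfl⟩
  rw [← slot_sentinel B k hk]
  exact h2 k (by omega)

end Crest.Agent.R035
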